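import Vale.Agent.P299.H723.D1.Ker
import Vale.Agent.P299.H956.D1.KForm

/-!
# P299, part D, D1-SPL: orthogonal parallel projections split the tangent bundle
-/

open scoped Manifold ContDiff ComplexOrder Topology
open Vale.Agent.P272.K Vale.Agent.P278.H837 Vale.Agent.P299.D Vale.Agent.P299.H956
open Vale.Agent.P278.StmtF (Dist Form)

noncomputable section

namespace Vale.Agent.P299.D1

section mat
variable {k n : ℕ} {P : Fin k → Matrix (Fin n) (Fin n) ℂ}

theorem sum_mul_self_of_mem (hP : ∀ i, P i * P i = P i) (hij : ∀ i j, i ≠ j → P i * P j = 0)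
    (s : Finset (Fin k)) {i : Fin k} (hi : i ∈ s) : (∑ j ∈ s, P j) * P i = P i := by
  rw [Finset.sum_mul, Finset.sum_eq_single i (fun j _ hj => hij j i hj) (fun h => absurd hi h),
    hP i]

theorem sum_proj (hP : ∀ i, P i * P i = P i) (hij : ∀ i j, i ≠ j → P i * P j = 0)
    (s : Finset (Fin k)) : (∑ j ∈ s, P j) * (∑ j ∈ s, P j) = ∑ j ∈ s, P j := by
  rw [Finset.mul_sum]
  exact Finset.sum_congr rfl fun i hi => sum_mul_self_of_mem hP hij s hi

theorem range_sum (hP : ∀ i, P i * P i = P i) (hij : ∀ i j, i ≠ j → P i * P j = 0)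
    (s : Finset (Fin k)) :
    LinearMap.range (Matrix.toLin' (∑ j ∈ s, P j)) =
      ⨆ i ∈ s, LinearMap.range (Matrix.toLin' (P i)) := by
  apply le_antisymm
  · rintro _ ⟨u, rfl⟩
    rw [Matrix.toLin'_apply, Matrix.sum_mulVec]
    refine Submodule.sum_mem _ fun i hi => ?_
    exact Submodule.mem_iSup_of_mem i (Submodule.mem_iSup_of_mem hi ⟨u, rfl⟩)
  · refine iSup₂_le fun i hi => ?_
    rintro _ ⟨u, rfl⟩
    refine ⟨(P i).mulVec u, ?_⟩
    rw [Matrix.toLin'_apply, Matrix.toLin'_apply, Matrix.mulVec_mulVec,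
      sum_mul_self_of_mem hP hij s hi]

theorem internal_of_proj (hP : ∀ i, P i * P i = P i) (hij : ∀ i j, i ≠ j → P i * P j = 0)
    (hs : ∑ i, P i = 1) :
    DirectSum.IsInternal fun i => LinearMap.range (Matrix.toLin' (P i)) := by
  apply DirectSum.isInternal_submodule_of_iSupIndep_of_iSup_eq_top
  · rw [iSupIndep_def]
    intro i
    rw [Submodule.disjoint_def]
    intro v hv hv'
    have h1 : (⨆ (j : Fin k) (_ : j ≠ i), LinearMap.range (Matrix.toLin' (P j))) ≤
        LinearMap.ker (Matrix.toLin' (P i)) := by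
      refine iSup₂_le fun j hj => ?_
      rintro _ ⟨u, rfl⟩
      rw [LinearMap.mem_ker, Matrix.toLin'_apply, Matrix.toLin'_apply, Matrix.mulVec_mulVec,
        hij i j (Ne.symm hj), Matrix.zero_mulVec]
    have h2 := h1 hv'
    rw [LinearMap.mem_ker, Matrix.toLin'_apply] at h2
    rw [← (mem_range_proj (hP i) v).1 hv]
    exact h2
  · rw [eq_top_iff]
    intro v _
    have h1 := range_sum hP hij Finset.univ
    rw [hs, Matrix.toLin'_one, LinearMap.range_id] at h1
    have h2 : v ∈ (⊤ : Submodule ℂ (Fin n → ℂ)) := Submodule.mem_top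
    rw [h1] at h2
    simpa using h2

end mat

section main
variable {k n : ℕ} {X : Type} [TopologicalSpace X] [ChartedSpace (Cm n) X]
  [IsManifold 𝓘(ℂ, Cm n) ω X] {w : FormM n X} {Q : Fin k → FormM n X}

theorem parEnd_sum (hQ : ∀ i, ParEnd w (Q i)) (s : Finset (Fin k)) :
    ParEnd w (fun e z => ∑ i ∈ s, Q i e z) := by
  classical
  induction s using Finset.induction_on with
  | empty => simpa using (ParEnd.zero (w := w) : ParEnd w (fun _ _ => 0))
  | insert a s ha ih =>
    simp only [Finset.sum_insert ha]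
    exact (hQ a).add ih

/-- **D1-SPL** -/
theorem isSplitting_of (hw : IsKahler w) (hQ : ∀ i, ParEnd w (Q i)) (hQQ : ∀ i, IsProjF (Q i))
    (horth : ∀ i j, i ≠ j → ∀ e x, At e x → Q i e (e x) * Q j e (e x) = 0)
    (hsum : ∀ e x, At e x → ∑ i, Q i e (e x) = 1) :
    IsSplitting (fun i => imDist (Q i)) where
  subbundle := fun i => isSubbundle_imDist (hQ i).hol (hQQ i)
  integrable := by
    classical
    intro I
    have h1 : (fun x : X => ⨆ i ∈ I, imDist (Q i) x) =
        imDist (fun e z => ∑ i ∈ I.toFinset, Q i e z) := by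
      funext x
      have hx := at_chartAt (n := n) x
      have h2 := range_sum (P := fun i => Q i (chartAt (Cm n) x) (chartAt (Cm n) x x))
        (fun i => hQQ i _ _ hx) (fun i j hij => horth i j hij _ _ hx) I.toFinset
      simp only [Set.mem_toFinset] at h2
      exact h2.symm
    rw [h1]
    refine isIntegrable_imDist hw (parEnd_sum hQ _) ?_
    intro e x hx
    exact sum_proj (P := fun i => Q i e (e x)) (fun i => hQQ i _ _ hx)
      (fun i j hij => horth i j hij _ _ hx) _
  direct := by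
    intro x
    have hx := at_chartAt (n := n) x
    exact internal_of_proj (P := fun i => Q i (chartAt (Cm n) x) (chartAt (Cm n) x x))
      (fun i => hQQ i _ _ hx) (fun i j hij => horth i j hij _ _ hx) (hsum _ _ hx)

end main

section comb
variable {k n : ℕ} {X M : Type} [TopologicalSpace X] [T2Space X] [CompactSpace X]
  [ConnectedSpace X] [ChartedSpace (Cm n) X] [IsManifold 𝓘(ℂ, Cm n) ω X]
  [TopologicalSpace M] [ChartedSpace (Cm n) M] [IsManifold 𝓘(ℂ, Cm n) ω M]
  [SimplyConnectedSpace M] {π : M → X} {w : FormM n X} {Q : Fin k → FormM n X}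

/-- **Product decomposition of the universal covering** from orthogonal parallel projections `Q i`
on `X`: `Φ` is compatible with the `Q i`. -/
theorem exists_prodQ (hπ : IsCoveringMap π) (hl : IsLocalDiffeomorph 𝓘(ℂ, Cm n) 𝓘(ℂ, Cm n) ω π)
    (hw : IsKahler w) (hQ : ∀ i, ParEnd w (Q i)) (hQQ : ∀ i, IsProjF (Q i))
    (horth : ∀ i j, i ≠ j → ∀ e x, At e x → Q i e (e x) * Q j e (e x) = 0)
    (hsum : ∀ e x, At e x → ∑ i, Q i e (e x) = 1) :
    ∃ P : Pr k n M π, ∀ i j, j ≠ i → ∀ (e : Chart n M) (m : M) (f : Chart (P.d j) (P.Y j)),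
      At e m → At f (P.Φ m j) → jacF (fun m => P.Φ m j) e f m * pullE π (Q i) e (e m) = 0 := by
  obtain ⟨P, hP⟩ := exists_prod (M := M) hπ hl (kform w) (kform_isKahler hw) _
    (isSplitting_of hw hQ hQQ horth hsum)
  exact ⟨P, fun i j hj e m f he hf =>
    jac_mul_pullE hl P (hQ i).hol (hQQ i) (hP i) hj he hf⟩

end comb

end Vale.Agent.P299.D1
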