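import Vale.Agent.P299.H723.D1.Desc
import Vale.Agent.P299.H723.D1.Spl

/-!
# P299, part D, D1-DESC: the three parallel projections on `X`
-/

open scoped Manifold ContDiff ComplexOrder Topology
open Vale.Agent.P272.K Vale.Agent.P278.H837 Vale.Agent.P299.D Vale.Agent.P299.H956

noncomputable section

namespace Vale.Agent.P299.D1

variable {n : ℕ} {X : Type} [TopologicalSpace X] [ChartedSpace (Cm n) X]
  [IsManifold 𝓘(ℂ, Cm n) ω X] {w : FormM n X}

/-- the Kähler metric of the universal covering -/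
abbrev UC.wM (U : UC n X) (w : FormM n X) : FormM n U.M := pullM U.π w

theorem UC.kah (U : UC n X) (hw : IsKahler w) : IsKahler (U.wM w) :=
  isKahler_pullM hw U.loc.contMDiff (immersive_of_localDiffeo U.loc)

theorem UC.deck_iso (U : UC n X) (hw : IsForm w) (γ : Deck U.π) (e : Chart n U.M) (m : U.M)
    (hm : At e m) : pullM (γ : U.M ≃ₜ U.M) (U.wM w) e (e m) = U.wM w e (e m) := by
  have h1 := pullM_comp (f := (γ : U.M ≃ₜ U.M)) (g := U.π) hw (contMDiff_deck U.loc γ)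
    U.loc.contMDiff hm
  have h2 : (fun y => U.π ((γ : U.M ≃ₜ U.M) y)) = U.π := funext γ.2
  rw [h2] at h1
  exact h1

/-- **D1-DESC.** The projection `P0` onto the span of the parallel fields of the universal covering,
the maximal parallel projection `P` killed by `Ric`, and the projections `Q 0 = P0`,
`Q 1 = P - P0`, `Q 2 = 1 - P`, which descend to `X`. -/
theorem exists_Q [Nonempty X] (U : UC n X) (hw : IsKahler w) :
    ∃ (P0 P : FormM n U.M) (Q : Fin 3 → FormM n X),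
      IsP0 (U.wM w) P0 ∧ IsPmax (U.wM w) P ∧
      (∀ e m, At e m → P e (e m) * P0 e (e m) = P0 e (e m)) ∧
      (∀ e m, At e m → P0 e (e m) * P e (e m) = P0 e (e m)) ∧
      (∀ i, ParEnd w (Q i)) ∧ (∀ i, IsProjF (Q i)) ∧
      (∀ i j, i ≠ j → ∀ e x, At e x → Q i e (e x) * Q j e (e x) = 0) ∧
      (∀ e x, At e x → ∑ i, Q i e (e x) = 1) ∧
      (∀ e m, At e m → pullE U.π (Q 0) e (e m) = P0 e (e m)) ∧
      (∀ e m, At e m → pullE U.π (Q 1) e (e m) = P e (e m) - P0 e (e m)) ∧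
      (∀ e m, At e m → pullE U.π (Q 2) e (e m) = 1 - P e (e m)) := by
  classical
  have hk := U.kah hw
  have hkh := hk.toIsHermitian
  have hne : Nonempty U.M := inferInstance
  obtain ⟨P0, a1, a2, a3, a4, a5⟩ := exists_P0 (w := U.wM w) hk
  obtain ⟨P, b1, b2, b3, b4⟩ := exists_max (w := U.wM w) hkh
  have h0 : IsP0 (U.wM w) P0 := ⟨a1, a2, a3, a4, a5⟩
  have hP : IsPmax (U.wM w) P := ⟨b1, b2, b3, b4⟩
  have c1 : ∀ e m, At e m → P e (e m) * P0 e (e m) = P0 e (e m) := b4 P0 a1 a3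
  have c2 : ∀ e m, At e m → P0 e (e m) * P e (e m) = P0 e (e m) := fun e m hm =>
    SA.mul_eq_right_comm (hkh.posDef e m hm) (b1.SA hm) (a1.SA hm) (c1 e m hm)
  -- invariance
  have hdeck : ∀ γ : Deck U.π, ∀ x, ((γ⁻¹ : Deck U.π) : U.M ≃ₜ U.M) ((γ : U.M ≃ₜ U.M) x) = x := by
    intro γ x
    show ((γ⁻¹ * γ : Deck U.π) : U.M ≃ₜ U.M) x = x
    rw [inv_mul_cancel]; rfl
  have hdeck' : ∀ γ : Deck U.π, ∀ x, (γ : U.M ≃ₜ U.M) (((γ⁻¹ : Deck U.π) : U.M ≃ₜ U.M) x) = x := by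
    intro γ x
    show ((γ * γ⁻¹ : Deck U.π) : U.M ≃ₜ U.M) x = x
    rw [mul_inv_cancel]; rfl
  have i0 : ∀ γ : Deck U.π, ∀ e m, At e m →
      pullE (γ : U.M ≃ₜ U.M) P0 e (e m) = P0 e (e m) := fun γ e m hm =>
    IsP0.inv (g := (γ : U.M ≃ₜ U.M)) (h := ((γ⁻¹ : Deck U.π) : U.M ≃ₜ U.M))
      (contMDiff_deck U.loc γ) (contMDiff_deck U.loc γ⁻¹) (hdeck' γ) (hdeck γ)
      (U.deck_iso hw.isForm γ) (U.deck_iso hw.isForm γ⁻¹) hk h0 hm
  have i1 : ∀ γ : Deck U.π, ∀ e m, At e m →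
      pullE (γ : U.M ≃ₜ U.M) P e (e m) = P e (e m) := fun γ e m hm =>
    IsPmax.inv (g := (γ : U.M ≃ₜ U.M)) (h := ((γ⁻¹ : Deck U.π) : U.M ≃ₜ U.M))
      (contMDiff_deck U.loc γ) (contMDiff_deck U.loc γ⁻¹) (hdeck' γ) (hdeck γ)
      (U.deck_iso hw.isForm γ) (U.deck_iso hw.isForm γ⁻¹) hk hP hm
  let σ : X → U.M := Function.surjInv U.surj
  have hσ : ∀ x, U.π (σ x) = x := Function.surjInv_eq U.surj
  set R0 := desc U.π σ P0 with hR0
  set R := desc U.π σ P with hR
  have r0 := desc_sa U.loc U.gal hσ hw.isForm h0.par i0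
  have r1 := desc_sa U.loc U.gal hσ hw.isForm hP.par i1
  have p0 : ∀ e m, At e m → pullE U.π R0 e (e m) = P0 e (e m) := fun e m hm =>
    pullE_desc U.loc U.gal hσ h0.par.hol i0 hm
  have p1 : ∀ e m, At e m → pullE U.π R e (e m) = P e (e m) := fun e m hm =>
    pullE_desc U.loc U.gal hσ hP.par.hol i1 hm
  -- the identities on `X`
  have key : ∀ (e : Chart n X) (x : X), At e x → ∃ (f : Chart n U.M) (m : U.M)
      (J : Matrix (Fin n) (Fin n) ℂ), At f m ∧ U.π m = x ∧ J⁻¹ * J = 1 ∧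
      R0 e (e x) = J * P0 f (f m) * J⁻¹ ∧ R e (e x) = J * P f (f m) * J⁻¹ := by
    intro e x hx
    obtain ⟨m, rfl⟩ : ∃ m, U.π m = x := ⟨σ x, hσ x⟩
    have hf := at_chartAt (n := n) m
    exact ⟨_, m, _, hf, rfl,
      Matrix.nonsing_inv_mul _ (jac_isUnit (immersive_of_localDiffeo U.loc) hf hx),
      desc_eq U.loc U.gal hσ h0.par.hol i0 hf hx, desc_eq U.loc U.gal hσ hP.par.hol i1 hf hx⟩
  have conj : ∀ {J A B : Matrix (Fin n) (Fin n) ℂ}, J⁻¹ * J = 1 →
      J * A * J⁻¹ * (J * B * J⁻¹) = J * (A * B) * J⁻¹ := by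
    intro J A B hJ
    calc J * A * J⁻¹ * (J * B * J⁻¹) = J * A * (J⁻¹ * J) * B * J⁻¹ := by
          simp only [Matrix.mul_assoc]
      _ = _ := by rw [hJ, Matrix.mul_one]; simp only [Matrix.mul_assoc]
  have q00 : ∀ e x, At e x → R0 e (e x) * R0 e (e x) = R0 e (e x) := by
    intro e x hx
    obtain ⟨f, m, J, hf, -, hJ, e0, e1⟩ := key e x hx
    rw [e0, conj hJ, a2 f m hf]
  have q11 : ∀ e x, At e x → R e (e x) * R e (e x) = R e (e x) := by
    intro e x hx
    obtain ⟨f, m, J, hf, -, hJ, e0, e1⟩ := key e x hx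
    rw [e1, conj hJ, b2 f m hf]
  have q10 : ∀ e x, At e x → R e (e x) * R0 e (e x) = R0 e (e x) := by
    intro e x hx
    obtain ⟨f, m, J, hf, -, hJ, e0, e1⟩ := key e x hx
    rw [e0, e1, conj hJ, c1 f m hf]
  have q01 : ∀ e x, At e x → R0 e (e x) * R e (e x) = R0 e (e x) := by
    intro e x hx
    obtain ⟨f, m, J, hf, -, hJ, e0, e1⟩ := key e x hx
    rw [e0, e1, conj hJ, c2 f m hf]
  have hone : ParEnd w (fun _ _ => 1 : FormM n X) := ParEnd.one
  refine ⟨P0, P, ![R0, fun e z => R e z - R0 e z, fun e z => 1 - R e z], h0, hP, c1, c2,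
    ?_, ?_, ?_, ?_, p0, ?_, ?_⟩
  · intro i
    fin_cases i
    · exact r0
    · exact r1.sub r0
    · exact hone.sub r1
  · intro i e x hx
    fin_cases i
    · exact q00 e x hx
    · show (R e (e x) - R0 e (e x)) * (R e (e x) - R0 e (e x)) = R e (e x) - R0 e (e x)
      rw [Matrix.sub_mul, Matrix.mul_sub, Matrix.mul_sub, q11 e x hx, q10 e x hx, q01 e x hx,
        q00 e x hx, sub_self, sub_zero]
    · show (1 - R e (e x)) * (1 - R e (e x)) = 1 - R e (e x)
      rw [Matrix.sub_mul, Matrix.mul_sub, Matrix.mul_sub, q11 e x hx, Matrix.one_mul,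
        Matrix.one_mul, Matrix.mul_one, sub_self, sub_zero]
  · intro i j hij e x hx
    have s00 := q00 e x hx
    have s11 := q11 e x hx
    have s10 := q10 e x hx
    have s01 := q01 e x hx
    fin_cases i <;> fin_cases j
    · exact absurd rfl hij
    · show R0 e (e x) * (R e (e x) - R0 e (e x)) = 0
      rw [Matrix.mul_sub, s01, s00, sub_self]
    · show R0 e (e x) * (1 - R e (e x)) = 0
      rw [Matrix.mul_sub, s01, Matrix.mul_one, sub_self]
    · show (R e (e x) - R0 e (e x)) * R0 e (e x) = 0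
      rw [Matrix.sub_mul, s10, s00, sub_self]
    · exact absurd rfl hij
    · show (R e (e x) - R0 e (e x)) * (1 - R e (e x)) = 0
      rw [Matrix.sub_mul, Matrix.mul_sub, Matrix.mul_sub, s11, s01, Matrix.mul_one,
        Matrix.mul_one, sub_self, sub_self, sub_zero]
    · show (1 - R e (e x)) * R0 e (e x) = 0
      rw [Matrix.sub_mul, s10, Matrix.one_mul, sub_self]
    · show (1 - R e (e x)) * (R e (e x) - R0 e (e x)) = 0
      rw [Matrix.sub_mul, Matrix.mul_sub, Matrix.mul_sub, s11, s10, Matrix.one_mul,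
        Matrix.one_mul, sub_self]
    · exact absurd rfl hij
  · intro e x hx
    rw [Fin.sum_univ_three]
    show R0 e (e x) + (R e (e x) - R0 e (e x)) + (1 - R e (e x)) = 1
    abel
  · intro e m hm
    have hc := at_chartAt (n := n) (U.π m)
    have hi := immersive_of_localDiffeo U.loc
    rw [← p0 e m hm, ← p1 e m hm]
    refine (pullE_eq (r1.sub r0).hol U.loc.contMDiff hi hm hc).trans ?_
    rw [pullE_eq r0.hol U.loc.contMDiff hi hm hc, pullE_eq r1.hol U.loc.contMDiff hi hm hc]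
    simp only [Matrix.mul_sub, Matrix.sub_mul]
  · intro e m hm
    have hc := at_chartAt (n := n) (U.π m)
    have hi := immersive_of_localDiffeo U.loc
    have hu := jac_isUnit hi hm hc
    rw [← p1 e m hm]
    refine (pullE_eq (hone.sub r1).hol U.loc.contMDiff hi hm hc).trans ?_
    rw [pullE_eq r1.hol U.loc.contMDiff hi hm hc]
    simp only [Matrix.mul_sub, Matrix.sub_mul, Matrix.mul_one, Matrix.nonsing_inv_mul _ hu]

end Vale.Agent.P299.D1
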