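import Vale.Agent.P299.H723.D1.Inv
import Vale.Agent.P278.H837.Main

/-!
# P299, part D, D1-DESC: invariant endomorphism fields descend
-/

open scoped Manifold ContDiff ComplexOrder Topology
open Vale.Agent.P272.K Vale.Agent.P278.H837 Vale.Agent.P299.D Vale.Agent.P299.H956

noncomputable section

namespace Vale.Agent.P299.D1

section
variable {n : ℕ} {M X : Type*} [TopologicalSpace M] [TopologicalSpace X]
  [ChartedSpace (Cm n) M] [ChartedSpace (Cm n) X]

/-- the field `B` on `M`, pushed down to `X` by means of a section `σ` of `π` -/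
def desc (π : M → X) (σ : X → M) (B : FormM n M) : FormM n X := fun e z =>
  jacF π (chartAt (Cm n) (σ (e.symm z))) e (σ (e.symm z)) *
    B (chartAt (Cm n) (σ (e.symm z))) (chartAt (Cm n) (σ (e.symm z)) (σ (e.symm z))) *
    (jacF π (chartAt (Cm n) (σ (e.symm z))) e (σ (e.symm z)))⁻¹

variable [IsManifold 𝓘(ℂ, Cm n) ω M] [IsManifold 𝓘(ℂ, Cm n) ω X] {π : M → X}
  {σ : X → M} {B : FormM n M}

/-- deck transformations are holomorphic, with Jacobians compatible with `π` -/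
theorem jacF_deck (hl : IsLocalDiffeomorph 𝓘(ℂ, Cm n) 𝓘(ℂ, Cm n) ω π) (γ : Deck π)
    {f : Chart n M} {f' : Chart n M} {e : Chart n X} {m : M} (hf : At f m)
    (hf' : At f' ((γ : M ≃ₜ M) m)) (he : At e (π m)) :
    jacF π f e m = jacF π f' e ((γ : M ≃ₜ M) m) * jacF (γ : M ≃ₜ M) f f' m := by
  have h1 := jacF_comp (f := (γ : M ≃ₜ M)) (g := π) (contMDiff_deck hl γ).contMDiffAt
    hl.contMDiff.contMDiffAt hf hf' (e'' := e) (by rw [γ.2 m]; exact he)
  rw [← h1]
  have h2 : (fun y => π ((γ : M ≃ₜ M) y)) = π := funext γ.2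
  rw [h2]

theorem immersive_deck (hl : IsLocalDiffeomorph 𝓘(ℂ, Cm n) 𝓘(ℂ, Cm n) ω π) (γ : Deck π) :
    Immersive n n (γ : M ≃ₜ M) := by
  intro f f' m hf hf' u hu
  have he := at_chartAt (n := n) (π m)
  have h1 := jacF_deck hl γ hf hf' he
  refine immersive_of_localDiffeo hl f _ m hf he u ?_
  rw [h1, ← Matrix.mulVec_mulVec, hu, Matrix.mulVec_zero]

/-- the defining relation of `desc` -/
theorem desc_rel (hl : IsLocalDiffeomorph 𝓘(ℂ, Cm n) 𝓘(ℂ, Cm n) ω π)
    (gal : ∀ m m' : M, π m = π m' ↔ ∃ γ : Deck π, (γ : M ≃ₜ M) m = m')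
    (hσ : ∀ x, π (σ x) = x) (hB : IsHolEnd B)
    (hinv : ∀ γ : Deck π, ∀ e m, At e m → pullE (γ : M ≃ₜ M) B e (e m) = B e (e m))
    {f : Chart n M} {e : Chart n X} {m : M} (hf : At f m) (he : At e (π m)) :
    desc π σ B e (e (π m)) * jacF π f e m = jacF π f e m * B f (f m) := by
  unfold desc
  rw [he.left_inv]
  obtain ⟨γ, hγ⟩ := (gal m (σ (π m))).1 (hσ (π m)).symm
  rw [← hγ]
  have hc := at_chartAt (n := n) ((γ : M ≃ₜ M) m)
  have hu : IsUnit (jacF π (chartAt (Cm n) ((γ : M ≃ₜ M) m)) e ((γ : M ≃ₜ M) m)).det :=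
    jac_isUnit (immersive_of_localDiffeo hl) hc (by rw [γ.2 m]; exact he)
  have h1 := pullE_rel hB (contMDiff_deck hl γ) (immersive_deck hl γ) hf hc
  rw [hinv γ f m hf] at h1
  rw [jacF_deck hl γ hf hc he, Matrix.mul_assoc, ← Matrix.mul_assoc (_⁻¹),
    Matrix.nonsing_inv_mul _ hu, Matrix.one_mul, Matrix.mul_assoc, ← h1, Matrix.mul_assoc]

theorem desc_eq (hl : IsLocalDiffeomorph 𝓘(ℂ, Cm n) 𝓘(ℂ, Cm n) ω π)
    (gal : ∀ m m' : M, π m = π m' ↔ ∃ γ : Deck π, (γ : M ≃ₜ M) m = m')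
    (hσ : ∀ x, π (σ x) = x) (hB : IsHolEnd B)
    (hinv : ∀ γ : Deck π, ∀ e m, At e m → pullE (γ : M ≃ₜ M) B e (e m) = B e (e m))
    {f : Chart n M} {e : Chart n X} {m : M} (hf : At f m) (he : At e (π m)) :
    desc π σ B e (e (π m)) = jacF π f e m * B f (f m) * (jacF π f e m)⁻¹ := by
  have hu := jac_isUnit (immersive_of_localDiffeo hl) hf he
  rw [← desc_rel hl gal hσ hB hinv hf he, Matrix.mul_assoc, Matrix.mul_nonsing_inv _ hu,
    Matrix.mul_one]

theorem desc_hol (hl : IsLocalDiffeomorph 𝓘(ℂ, Cm n) 𝓘(ℂ, Cm n) ω π)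
    (gal : ∀ m m' : M, π m = π m' ↔ ∃ γ : Deck π, (γ : M ≃ₜ M) m = m')
    (hσ : ∀ x, π (σ x) = x) (hB : IsHolEnd B)
    (hinv : ∀ γ : Deck π, ∀ e m, At e m → pullE (γ : M ≃ₜ M) B e (e m) = B e (e m)) :
    IsHolEnd (desc π σ B) where
  holo e x hx i j := by
    obtain ⟨m, rfl⟩ : ∃ m, π m = x := ⟨σ x, hσ x⟩
    have hf := at_chartAt (n := n) m
    set f := chartAt (Cm n) m
    obtain ⟨g, hgm, hg, hgπ, hπg⟩ := exists_localInverse hl m
    have hgx : ContMDiffAt 𝓘(ℂ, Cm n) 𝓘(ℂ, Cm n) ω g (π m) := hg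
    have h1 : AnalyticAt ℂ (fun z => f (g (e.symm z))) (e (π m)) :=
      (rep_hol hgx hx (by rw [hgm]; exact hf)).analyticAt
    have hJ := jacF_analytic (hl.contMDiff.contMDiffAt) hf hx
    have h0 : (jmR (fun z => e (π (f.symm z))) (f m)).det ≠ 0 :=
      det_inj (immersive_of_localDiffeo hl f e m hf hx)
    have h2 : ∀ i j, AnalyticAt ℂ (fun z => (jmR (fun z => e (π (f.symm z))) z * B f z *
        (jmR (fun z => e (π (f.symm z))) z)⁻¹) i j) (f m) := fun i j =>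
      analytic_mul_entry (fun i j => analytic_mul_entry hJ (hB.holo f m hf) i j)
        (fun i j => analytic_inv hJ h0 i j) i j
    have h3 : AnalyticAt ℂ (fun z => (jmR (fun z => e (π (f.symm z))) (f (g (e.symm z))) *
        B f (f (g (e.symm z))) * (jmR (fun z => e (π (f.symm z))) (f (g (e.symm z))))⁻¹) i j)
        (e (π m)) := by
      refine AnalyticAt.comp' (g := fun z => (jmR (fun z => e (π (f.symm z))) z * B f z *
        (jmR (fun z => e (π (f.symm z))) z)⁻¹) i j) ?_ h1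
      rw [hx.left_inv, hgm]
      exact h2 i j
    refine h3.congr ?_
    have hn1 := nhds_at_map (f := g) hgx.continuousAt hx (e' := f) (by rw [hgm]; exact hf)
    have hn2 : ∀ᶠ z in 𝓝 (e (π m)), π (g (e.symm z)) = e.symm z := by
      have hc : Filter.Tendsto e.symm (𝓝 (e (π m))) (𝓝 (π m)) := by
        have := e.continuousAt_symm hx.mem_target
        rwa [ContinuousAt, hx.left_inv] at this
      exact hc.eventually hπg
    filter_upwards [hn1, hn2] with z hz hz2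
    have h4 := desc_eq hl gal hσ hB hinv (f := f) (e := e) (m := g (e.symm z)) hz.2.2
      (by rw [hz2]; exact hz.2.1)
    rw [hz2, e.right_inv hz.1] at h4
    rw [h4, jacF_eq]
  change e e' x hx hx' := by
    obtain ⟨m, rfl⟩ : ∃ m, π m = x := ⟨σ x, hσ x⟩
    have hf := at_chartAt (n := n) m
    set f := chartAt (Cm n) m
    have h1 := desc_rel hl gal hσ hB hinv hf hx
    have h2 := desc_rel hl gal hσ hB hinv hf hx'
    have h3 := jacF_right (f := π) hl.contMDiff.contMDiffAt hf hx hx'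
    have hu := jac_isUnit (immersive_of_localDiffeo hl) hf hx
    rw [h3, ← Matrix.mul_assoc, Matrix.mul_assoc (jacM e e' (π m)), ← h1, ← Matrix.mul_assoc] at h2
    have h4 := congrArg (· * (jacF π f e m)⁻¹) h2
    simpa only [Matrix.mul_assoc, Matrix.mul_nonsing_inv _ hu, Matrix.mul_one] using h4.symm

theorem pullE_desc (hl : IsLocalDiffeomorph 𝓘(ℂ, Cm n) 𝓘(ℂ, Cm n) ω π)
    (gal : ∀ m m' : M, π m = π m' ↔ ∃ γ : Deck π, (γ : M ≃ₜ M) m = m')
    (hσ : ∀ x, π (σ x) = x) (hB : IsHolEnd B)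
    (hinv : ∀ γ : Deck π, ∀ e m, At e m → pullE (γ : M ≃ₜ M) B e (e m) = B e (e m))
    {f : Chart n M} {m : M} (hf : At f m) :
    pullE π (desc π σ B) f (f m) = B f (f m) := by
  have hc := at_chartAt (n := n) (π m)
  have hu := jac_isUnit (immersive_of_localDiffeo hl) hf hc
  rw [pullE_eq (desc_hol hl gal hσ hB hinv) hl.contMDiff (immersive_of_localDiffeo hl) hf hc,
    Matrix.mul_assoc, desc_rel hl gal hσ hB hinv hf hc, ← Matrix.mul_assoc,
    Matrix.nonsing_inv_mul _ hu, Matrix.one_mul]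

theorem desc_sa (hl : IsLocalDiffeomorph 𝓘(ℂ, Cm n) 𝓘(ℂ, Cm n) ω π)
    (gal : ∀ m m' : M, π m = π m' ↔ ∃ γ : Deck π, (γ : M ≃ₜ M) m = m')
    (hσ : ∀ x, π (σ x) = x) {w : FormM n X} (hw : IsForm w) (hB : ParEnd (pullM π w) B)
    (hinv : ∀ γ : Deck π, ∀ e m, At e m → pullE (γ : M ≃ₜ M) B e (e m) = B e (e m)) :
    ParEnd w (desc π σ B) := by
  refine ⟨desc_hol hl gal hσ hB.hol hinv, ?_⟩
  intro e x hx
  obtain ⟨m, rfl⟩ : ∃ m, π m = x := ⟨σ x, hσ x⟩
  have hf := at_chartAt (n := n) m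
  set f := chartAt (Cm n) m
  have hu := jac_isUnit (immersive_of_localDiffeo hl) hf hx
  have h1 : SA (pullM π w f (f m)) (B f (f m)) := hB.SA hf
  rw [pullM_eq hw hl.contMDiff.contMDiffAt hf hx] at h1
  rw [desc_eq hl gal hσ hB.hol hinv hf hx]
  set J := jacF π f e m
  have hu' : IsUnit (J⁻¹).det := Matrix.isUnit_nonsing_inv_det _ hu
  have h2 := SA_pull hu' h1
  have h3 : (J⁻¹).transpose * (J.transpose * w e (e (π m)) * J.map (starRingEnd ℂ)) * mcj J⁻¹ =
      w e (e (π m)) := by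
    have k1 : (J⁻¹).transpose * J.transpose = 1 := by
      rw [← Matrix.transpose_mul, Matrix.mul_nonsing_inv _ hu, Matrix.transpose_one]
    have k2 : J.map (starRingEnd ℂ) * mcj J⁻¹ = 1 := mcj_inv' hu
    calc (J⁻¹).transpose * (J.transpose * w e (e (π m)) * J.map (starRingEnd ℂ)) * mcj J⁻¹ =
        ((J⁻¹).transpose * J.transpose) * w e (e (π m)) * (J.map (starRingEnd ℂ) * mcj J⁻¹) := by
          simp only [Matrix.mul_assoc]
      _ = _ := by rw [k1, k2, Matrix.one_mul, Matrix.mul_one]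
  rw [h3, Matrix.nonsing_inv_nonsing_inv _ hu] at h2
  exact h2

end

end Vale.Agent.P299.D1
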