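import Vale.Agent.P299.H956.D1.PullE
import Vale.Agent.P299.H956.D1.Par0

/-!
# P299, part D, D1-INV: the canonical parallel projections are invariant under isometries
-/

open scoped Manifold ContDiff ComplexOrder Topology
open Vale.Agent.P272.K Vale.Agent.P299.D Vale.Agent.P299.H956

noncomputable section

namespace Vale.Agent.P299.D1

variable {n : ℕ} {M : Type*} [TopologicalSpace M] [ChartedSpace (Cm n) M]
  [IsManifold 𝓘(ℂ, Cm n) ω M] {w P A : FormM n M} {g h : M → M}

/-- the defining properties of the projection onto the span of the parallel fields -/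
structure IsP0 (w P : FormM n M) : Prop where
  par : ParEnd w P
  proj : IsProjF P
  ric : RicKills w P
  fix : ∀ v, IsParVF w v → ∀ e x, At e x → (P e (e x)).mulVec (v e (e x)) = v e (e x)
  span : ∀ e x, At e x → ∀ u, ∃ v, IsParVF w v ∧ v e (e x) = (P e (e x)).mulVec u

/-- the defining properties of the maximal parallel projection killed by `Ric` -/
structure IsPmax (w P : FormM n M) : Prop where
  par : ParEnd w P
  proj : IsProjF P
  ric : RicKills w P
  max : ∀ B : FormM n M, ParEnd w B → RicKills w B →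
    ∀ e x, At e x → P e (e x) * B e (e x) = B e (e x)

omit [IsManifold 𝓘(ℂ, Cm n) ω M] in
theorem eq_of_mul (hw : IsHermitian w) (hP : ParEnd w P) (hA : ParEnd w A)
    (h1 : ∀ e x, At e x → P e (e x) * A e (e x) = A e (e x))
    (h2 : ∀ e x, At e x → A e (e x) * P e (e x) = P e (e x)) {e : Chart n M} {x : M}
    (hx : At e x) : A e (e x) = P e (e x) := by
  have h3 := SA.mul_eq_right_comm (hw.posDef e x hx) (hP.SA hx) (hA.SA hx) (h1 e x hx)
  rw [← h3, h2 e x hx]

omit [IsManifold 𝓘(ℂ, Cm n) ω M] in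
theorem mul_of_mulVec {P A : Matrix (Fin n) (Fin n) ℂ}
    (h : ∀ u : Cm n, P.mulVec (A.mulVec u) = A.mulVec u) : P * A = A := by
  ext i j
  have h1 := congrFun (h (Pi.single j 1)) i
  rw [Matrix.mulVec_mulVec, Matrix.mulVec_single_one, Matrix.mulVec_single_one] at h1
  exact h1

/-- two projections onto the span of the parallel fields agree -/
theorem IsP0.unique (hw : IsHermitian w) (hP : IsP0 w P) (hA : IsP0 w A) {e : Chart n M} {x : M}
    (hx : At e x) : A e (e x) = P e (e x) := by
  refine eq_of_mul hw hP.par hA.par ?_ ?_ hx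
  · intro e x hx
    refine mul_of_mulVec fun u => ?_
    obtain ⟨v, hv, hv'⟩ := hA.span e x hx u
    rw [← hv']
    exact hP.fix v hv e x hx
  · intro e x hx
    refine mul_of_mulVec fun u => ?_
    obtain ⟨v, hv, hv'⟩ := hP.span e x hx u
    rw [← hv']
    exact hA.fix v hv e x hx

variable (hg : ContMDiff 𝓘(ℂ, Cm n) 𝓘(ℂ, Cm n) ω g) (hh : ContMDiff 𝓘(ℂ, Cm n) 𝓘(ℂ, Cm n) ω h)
  (hgh : ∀ x, g (h x) = x) (hhg : ∀ x, h (g x) = x)
  (hgw : ∀ e x, At e x → pullM g w e (e x) = w e (e x))
  (hhw : ∀ e x, At e x → pullM h w e (e x) = w e (e x))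

include hg hh hgh in
theorem jac_inv_mul {e f : Chart n M} {x : M} (he : At e x) (hf : At f (h x)) :
    jacF g f e (h x) * jacF h e f x = 1 := by
  have h1 := jacF_comp (f := h) (g := g) (e'' := e) hh.contMDiffAt hg.contMDiffAt he hf
    (by rw [hgh]; exact he)
  rw [← h1]
  have h2 : (fun y => g (h y)) = fun y => y := funext hgh
  rw [h2, jacF_id, jacM_self he]

include hg hh hhg in
theorem immersive_of_inv : Immersive n n g := by
  intro e e' y h1 h2 u hu
  exact mulVec_inj_of_left (jac_inv_mul (g := h) (h := g) hh hg hhg h1 h2) u hu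

include hg hh hgh hhg hgw hhw in
/-- the pull back of `P0` by an isometry is `P0` -/
theorem IsP0.inv (hw : IsKahler w) (hP : IsP0 w P) {e : Chart n M} {x : M} (hx : At e x) :
    pullE g P e (e x) = P e (e x) := by
  have hig : Immersive n n g := immersive_of_inv hg hh hhg
  have hih : Immersive n n h := immersive_of_inv hh hg hgh
  have hwh := hw.toIsHermitian
  refine IsP0.unique hwh hP ?_ hx
  refine ⟨parEnd_congr_metric hgw (pullE_par hw.isForm hP.par hg hig),
    pullE_proj hP.par.hol hP.proj hg hig,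
    ricKills_congr_metric hgw (pullE_ricKills hwh hP.par.hol hP.ric hg hig), ?_, ?_⟩
  · intro v hv e x hx
    have hc := at_chartAt (n := n) (g x)
    have hv' : IsParVF w (pullV h v) :=
      parVF_congr_metric hhw (pullV_par hw.isForm hv hh hih)
    have hx' : At e (h (g x)) := by rw [hhg]; exact hx
    have h1 := pullV_rel (f := h) hv.toIsHolVF hh hih hc hx'
    have h2 := jac_inv_mul (g := g) (h := h) hg hh hgh hc hx'
    have h3 := hP.fix _ hv' _ _ hc
    have hxx : h (g x) = x := hhg x
    rw [hxx] at h1 h2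
    have h4 : (jacF g e (chartAt (Cm n) (g x)) x).mulVec (v e (e x)) =
        pullV h v (chartAt (Cm n) (g x)) (chartAt (Cm n) (g x) (g x)) := by
      rw [← h1, Matrix.mulVec_mulVec, h2, Matrix.one_mulVec]
    have hu := jac_isUnit hig hx hc
    rw [pullE_eq hP.par.hol hg hig hx hc, ← Matrix.mulVec_mulVec, h4, ← Matrix.mulVec_mulVec, h3,
      ← h4, Matrix.mulVec_mulVec, Matrix.nonsing_inv_mul _ hu, Matrix.one_mulVec]
  · intro e x hx u
    have hc := at_chartAt (n := n) (g x)
    obtain ⟨v, hv, hv'⟩ := hP.span _ _ hc ((jacF g e (chartAt (Cm n) (g x)) x).mulVec u)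
    refine ⟨pullV g v, parVF_congr_metric hgw (pullV_par hw.isForm hv hg hig), ?_⟩
    rw [pullV_eq hv.toIsHolVF hg hig hx hc, hv', pullE_eq hP.par.hol hg hig hx hc,
      Matrix.mulVec_mulVec, Matrix.mulVec_mulVec, Matrix.mul_assoc]

include hg hh hgh hhg hgw hhw in
/-- the pull back of the maximal projection by an isometry is the maximal projection -/
theorem IsPmax.inv (hw : IsKahler w) (hP : IsPmax w P) {e : Chart n M} {x : M} (hx : At e x) :
    pullE g P e (e x) = P e (e x) := by
  have hig : Immersive n n g := immersive_of_inv hg hh hhg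
  have hih : Immersive n n h := immersive_of_inv hh hg hgh
  have hwh := hw.toIsHermitian
  have hA : ParEnd w (pullE g P) := parEnd_congr_metric hgw (pullE_par hw.isForm hP.par hg hig)
  have hAr : RicKills w (pullE g P) :=
    ricKills_congr_metric hgw (pullE_ricKills hwh hP.par.hol hP.ric hg hig)
  have hB : ParEnd w (pullE h P) := parEnd_congr_metric hhw (pullE_par hw.isForm hP.par hh hih)
  have hBr : RicKills w (pullE h P) :=
    ricKills_congr_metric hhw (pullE_ricKills hwh hP.par.hol hP.ric hh hih)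
  refine eq_of_mul hwh hP.par hA (hP.max _ hA hAr) ?_ hx
  intro e x hx
  have hc := at_chartAt (n := n) (g x)
  have hx' : At e (h (g x)) := by rw [hhg]; exact hx
  have h1 := hP.max _ hB hBr _ _ hc
  have h2 := pullE_rel (f := h) hP.par.hol hh hih hc hx'
  have h3 := pullE_rel (f := g) hP.par.hol hg hig hx hc
  have h5 := jac_inv_mul (g := g) (h := h) hg hh hgh hc hx'
  have hxx : h (g x) = x := hhg x
  rw [hxx] at h2 h5
  set J := jacF g e (chartAt (Cm n) (g x)) x
  set K := jacF h (chartAt (Cm n) (g x)) e (g x)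
  set Pg := P (chartAt (Cm n) (g x)) (chartAt (Cm n) (g x) (g x))
  set Bg := pullE h P (chartAt (Cm n) (g x)) (chartAt (Cm n) (g x) (g x))
  have h6 : K * J = 1 := mul_eq_one_comm.1 h5
  -- `J * A = Pg * J`, `K * Bg = P * K`, `Pg * Bg = Bg`
  have h7 : Bg = J * P e (e x) * K := by
    rw [Matrix.mul_assoc, ← h2, ← Matrix.mul_assoc, h5, Matrix.one_mul]
  have h8 : pullE g P e (e x) = K * Pg * J := by
    rw [Matrix.mul_assoc, ← h3, ← Matrix.mul_assoc, h6, Matrix.one_mul]
  have h9 : P e (e x) = K * Bg * J := by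
    rw [h7]
    calc P e (e x) = (K * J) * P e (e x) * (K * J) := by rw [h6, Matrix.one_mul, Matrix.mul_one]
      _ = _ := by simp only [Matrix.mul_assoc]
  rw [h8]
  calc K * Pg * J * P e (e x) = K * Pg * J * (K * Bg * J) := by rw [← h9]
    _ = K * Pg * (J * K) * Bg * J := by simp only [Matrix.mul_assoc]
    _ = K * (Pg * Bg) * J := by rw [h5, Matrix.mul_one]; simp only [Matrix.mul_assoc]
    _ = P e (e x) := by rw [h1, ← h9]

end Vale.Agent.P299.D1
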