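import Vale.Agent.P299.H723.D1.Prod
import Vale.Agent.P299.H956.D1.Integ

/-!
# P299, part D, D1-PROD: the kernel conditions for the projections `Q i`
-/

open scoped Manifold ContDiff ComplexOrder Topology
open Vale.Agent.P272.K Vale.Agent.P278.H837 Vale.Agent.P299.D Vale.Agent.P299.H956
open Vale.Agent.P278.StmtF (Dist Form)

noncomputable section

namespace Vale.Agent.P299.D1

section main
variable {k n : ℕ} {X M : Type} [TopologicalSpace X] [ChartedSpace (Cm n) X]
  [IsManifold 𝓘(ℂ, Cm n) ω X]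
  [TopologicalSpace M] [ChartedSpace (Cm n) M] [IsManifold 𝓘(ℂ, Cm n) ω M]
  {π : M → X}

/-- The kernel condition of `exists_prod` for the distribution `im Q`: `dΦ_j` kills the pull back
of `Q`. -/
theorem jac_mul_pullE (hl : IsLocalDiffeomorph 𝓘(ℂ, Cm n) 𝓘(ℂ, Cm n) ω π) (P : Pr k n M π)
    {Q : FormM n X} (hQ : IsHolEnd Q) (hQQ : IsProjF Q) {i : Fin k}
    (hker : ∀ (e : Chart n M) (m : M)
      (e' : (i : Fin k) → Chart (P.d i) (P.Y i)), At e m → (∀ j, At (e' j) (P.Φ m j)) →
      ∀ u : Cm n, ((jacF π e (chartAt (Cm n) (π m)) m).mulVec u : Cm n) ∈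
          (imDist Q (π m) : Submodule ℂ (Cm n)) ↔
        ∀ j, j ≠ i → (jacF (fun m => P.Φ m j) e (e' j) m).mulVec u = 0)
    {j : Fin k} (hj : j ≠ i) {e : Chart n M} {m : M} {f : Chart (P.d j) (P.Y j)} (he : At e m)
    (hf : At f (P.Φ m j)) :
    jacF (fun m => P.Φ m j) e f m * pullE π Q e (e m) = 0 := by
  classical
  have hc := at_chartAt (n := n) (π m)
  let e' : (i : Fin k) → Chart (P.d i) (P.Y i) :=
    Function.update (fun i => chartAt (Cm (P.d i)) (P.Φ m i)) j f
  have he' : ∀ i, At (e' i) (P.Φ m i) := by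
    intro i
    by_cases h : i = j
    · subst h
      simp only [e', Function.update_self]; exact hf
    · simp only [e', Function.update_of_ne h]; exact at_chartAt _
  have hrel := pullE_rel hQ hl.contMDiff (immersive_of_localDiffeo hl) he hc
  ext p q
  have h1 : (jacF π e (chartAt (Cm n) (π m)) m).mulVec
      ((pullE π Q e (e m)).mulVec (Pi.single q 1)) ∈ (imDist Q (π m) : Submodule ℂ (Cm n)) := by
    rw [Matrix.mulVec_mulVec, hrel, ← Matrix.mulVec_mulVec]
    refine ⟨(jacF π e (chartAt (Cm n) (π m)) m).mulVec (Pi.single q 1), ?_⟩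
    rw [Matrix.toLin'_apply]
  have h2 := (hker e m e' he he' _).1 h1 j hj
  have h3 : e' j = f := by simp [e']
  rw [h3, Matrix.mulVec_mulVec, Matrix.mulVec_single_one] at h2
  exact congrFun h2 p

end main

end Vale.Agent.P299.D1
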