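import Vale.Agent.P299.H723.D.Defs

/-!
# P299, part D, D1-PROD: changing the model space of a complex manifold by a linear isomorphism
-/

open scoped Manifold ContDiff ComplexOrder Topology
open Vale.Agent.P272.K

noncomputable section

namespace Vale.Agent.P299.D1

variable {A : Type*} [NormedAddCommGroup A] [NormedSpace ℂ A] {d : ℕ}

/-- the manifold `Y` (modelled on `A`), charted on `Cm d` by means of `L : A ≃L Cm d` -/
@[reducible] def transCh (L : A ≃L[ℂ] Cm d) (Y : Type*) [TopologicalSpace Y] [ChartedSpace A Y] :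
    ChartedSpace (Cm d) Y where
  atlas := (fun e : OpenPartialHomeomorph Y A =>
    e.trans L.toHomeomorph.toOpenPartialHomeomorph) '' atlas A Y
  chartAt y := (chartAt A y).trans L.toHomeomorph.toOpenPartialHomeomorph
  mem_chart_source y := by simp
  chart_mem_atlas y := ⟨_, chart_mem_atlas _ _, rfl⟩

variable (L : A ≃L[ℂ] Cm d) (Y : Type*) [TopologicalSpace Y] [ChartedSpace A Y]

theorem transCh_manifold [IsManifold 𝓘(ℂ, A) ω Y] :
    letI := transCh L Y
    IsManifold 𝓘(ℂ, Cm d) ω Y := by
  letI := transCh L Y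
  refine isManifold_of_contDiffOn _ _ _ ?_
  rintro _ _ ⟨e, he, rfl⟩ ⟨e', he', rfl⟩
  have h1 := HasGroupoid.compatible (G := contDiffGroupoid ω 𝓘(ℂ, A)) he he'
  rw [contDiffGroupoid, mem_groupoid_of_pregroupoid] at h1
  have h3 : ContDiffOn ℂ ω (e.symm.trans e') (e.symm.trans e').source := by
    have := h1.1
    simpa [contDiffPregroupoid] using this
  have h4 : ContDiffOn ℂ ω (fun z => L ((e.symm.trans e') (L.symm z)))
      (L.symm ⁻¹' (e.symm.trans e').source) :=
    L.contDiff.comp_contDiffOn (h3.comp L.symm.contDiff.contDiffOn (fun z hz => hz))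
  refine h4.congr_mono ?_ ?_
  · intro z hz; rfl
  · intro z hz
    simpa using hz

theorem transCh_id [IsManifold 𝓘(ℂ, A) ω Y] :
    letI := transCh L Y
    ContMDiff 𝓘(ℂ, A) 𝓘(ℂ, Cm d) ω (fun y : Y => y) := by
  letI := transCh L Y
  intro y
  rw [contMDiffAt_iff]
  refine ⟨continuousAt_id, ?_⟩
  have h1 : ContDiffWithinAt ℂ ω (fun z : A => L z) (Set.range 𝓘(ℂ, A)) (extChartAt 𝓘(ℂ, A) y y) :=
    L.contDiff.contDiffWithinAt
  refine h1.congr_of_eventuallyEq ?_ ?_
  · have : ∀ᶠ z in 𝓝 (chartAt A y y), z ∈ (chartAt A y).target :=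
      (chartAt A y).open_target.mem_nhds (mem_chart_target A y)
    refine Filter.Eventually.filter_mono nhdsWithin_le_nhds ?_
    filter_upwards [this] with z hz
    simp only [mfld_simps]
    show L ((chartAt A y) ((chartAt A y).symm z)) = L z
    rw [(chartAt A y).right_inv hz]
  · simp only [mfld_simps]
    rfl

theorem transCh_id' [IsManifold 𝓘(ℂ, A) ω Y] :
    letI := transCh L Y
    ContMDiff 𝓘(ℂ, Cm d) 𝓘(ℂ, A) ω (fun y : Y => y) := by
  letI := transCh L Y
  intro y
  rw [contMDiffAt_iff]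
  refine ⟨continuousAt_id, ?_⟩
  have h1 : ContDiffWithinAt ℂ ω (fun z : Cm d => L.symm z) (Set.range 𝓘(ℂ, Cm d))
      (extChartAt 𝓘(ℂ, Cm d) y y) :=
    L.symm.contDiff.contDiffWithinAt
  refine h1.congr_of_eventuallyEq ?_ ?_
  · have : ∀ᶠ z in 𝓝 (chartAt (Cm d) y y), z ∈ (chartAt (Cm d) y).target :=
      (chartAt (Cm d) y).open_target.mem_nhds (mem_chart_target (Cm d) y)
    refine Filter.Eventually.filter_mono nhdsWithin_le_nhds ?_
    filter_upwards [this] with z hz
    simp only [mfld_simps]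
    show (chartAt A y) ((chartAt A y).symm (L.symm z)) = L.symm z
    refine (chartAt A y).right_inv ?_
    have : z ∈ ((chartAt A y).trans L.toHomeomorph.toOpenPartialHomeomorph).target := hz
    simpa using this
  · simp only [mfld_simps]
    exact (L.symm_apply_apply _).symm

end Vale.Agent.P299.D1
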