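import Vale.Agent.P299.H723.D1.UC
import Vale.Agent.P299.H723.D1.Trans
import Vale.Agent.P299.H956.D1.PullE
import Vale.Agent.P299.H956.D1.Bridge

/-!
# P299, part D, D1-PROD: the product decomposition of the universal covering, in charts
-/

open scoped Manifold ContDiff ComplexOrder Topology
open Vale.Agent.P272.K Vale.Agent.P278.H837 Vale.Agent.P299.D Vale.Agent.P299.H956
open Vale.Agent.P278.StmtF (Dist Form)

noncomputable section

namespace Vale.Agent.P299.D1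

/-- The holomorphic part of `Vale.Agent.P299.D.Split`, for any number `k` of factors: `Φ` is a
biholomorphic map from `M` to the product of the simply connected manifolds `Y i`, the deck group
acts diagonally. -/
structure Pr (k n : ℕ) (M : Type) [TopologicalSpace M] [ChartedSpace (Cm n) M] {X : Type}
    (π : M → X) where
  d : Fin k → ℕ
  Y : Fin k → Type
  topY : ∀ i, TopologicalSpace (Y i)
  chY : ∀ i, ChartedSpace (Cm (d i)) (Y i)
  mfdY : ∀ i, IsManifold 𝓘(ℂ, Cm (d i)) ω (Y i)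
  t2Y : ∀ i, T2Space (Y i)
  scY : ∀ i, SimplyConnectedSpace (Y i)
  secY : ∀ i, SecondCountableTopology (Y i)
  dsum : ∑ i, d i = n
  Φ : M ≃ₜ ((i : Fin k) → Y i)
  Φ_hol : ∀ i, ContMDiff 𝓘(ℂ, Cm n) 𝓘(ℂ, Cm (d i)) ω (fun m => Φ m i)
  /-- joint holomorphy of `Φ⁻¹` -/
  symm_hol : ∀ (e : Chart n M) (m : M) (e' : (i : Fin k) → Chart (d i) (Y i)), At e m →
    (∀ i, At (e' i) (Φ m i)) →
    ContDiffAt ℂ ω (fun ζ : (i : Fin k) → Cm (d i) => e (Φ.symm fun i => (e' i).symm (ζ i)))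
      (fun i => e' i (Φ m i))
  slice_hol : ∀ i (y : (i : Fin k) → Y i), ContMDiff 𝓘(ℂ, Cm (d i)) 𝓘(ℂ, Cm n) ω
    (fun z : Y i => Φ.symm (Function.update y i z))
  jac_inj : ∀ (e : Chart n M) (m : M) (e' : (i : Fin k) → Chart (d i) (Y i)), At e m →
    (∀ i, At (e' i) (Φ m i)) → ∀ u : Cm n,
    (∀ i, (jacF (fun m => Φ m i) e (e' i) m).mulVec u = 0) → u = 0
  ρ : ∀ i, Deck π →* Equiv.Perm (Y i)
  ρ_hol : ∀ i γ, ContMDiff 𝓘(ℂ, Cm (d i)) 𝓘(ℂ, Cm (d i)) ω (ρ i γ)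
  equiv : ∀ (γ : Deck π) m i, Φ ((γ : M ≃ₜ M) m) i = ρ i γ (Φ m i)

attribute [instance] Pr.topY Pr.chY Pr.mfdY Pr.t2Y Pr.scY Pr.secY

section aux
variable {k n : ℕ} {M : Type} [TopologicalSpace M] [ChartedSpace (Cm n) M]
  [IsManifold 𝓘(ℂ, Cm n) ω M]
  {d : Fin k → ℕ} {Y : Fin k → Type} [∀ i, TopologicalSpace (Y i)]
  [∀ i, ChartedSpace (Cm (d i)) (Y i)] [∀ i, IsManifold 𝓘(ℂ, Cm (d i)) ω (Y i)]
  (Φ : M ≃ₜ ((i : Fin k) → Y i)) {e : Chart n M} {m : M} {e' : (i : Fin k) → Chart (d i) (Y i)}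

/-- `Φ` in charts -/
def reps (e : Chart n M) (e' : (i : Fin k) → Chart (d i) (Y i)) : Cm n → (i : Fin k) → Cm (d i) :=
  fun z i => e' i (Φ (e.symm z) i)

/-- `Φ⁻¹` in charts -/
def repi (e : Chart n M) (e' : (i : Fin k) → Chart (d i) (Y i)) : ((i : Fin k) → Cm (d i)) → Cm n :=
  fun ζ => e (Φ.symm fun i => (e' i).symm (ζ i))

omit [∀ i, ChartedSpace (Cm (d i)) (Y i)] [ChartedSpace (Cm n) M] [IsManifold 𝓘(ℂ, Cm n) ω M]
  [∀ i, IsManifold 𝓘(ℂ, Cm (d i)) ω (Y i)] in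
theorem repi_reps (he : m ∈ e.source) (he' : ∀ i, Φ m i ∈ (e' i).source) :
    ∀ᶠ z in 𝓝 (e m), repi Φ e e' (reps Φ e e' z) = z := by
  have h1 : ∀ᶠ z in 𝓝 (e m), z ∈ e.target := e.open_target.mem_nhds (e.map_source he)
  have h2 : ∀ᶠ z in 𝓝 (e m), ∀ i, Φ (e.symm z) i ∈ (e' i).source := by
    rw [Filter.eventually_all]
    intro i
    have hc : ContinuousAt (fun z => Φ (e.symm z) i) (e m) :=
      (continuous_apply i).continuousAt.comp
        (Φ.continuous.continuousAt.comp (e.continuousAt_symm (e.map_source he)))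
    refine hc.eventually ((e' i).open_source.mem_nhds ?_)
    show Φ (e.symm (e m)) i ∈ _
    rw [e.left_inv he]; exact he' i
  filter_upwards [h1, h2] with z hz hz'
  show e (Φ.symm fun i => (e' i).symm (e' i (Φ (e.symm z) i))) = z
  have : (fun i => (e' i).symm (e' i (Φ (e.symm z) i))) = Φ (e.symm z) :=
    funext fun i => (e' i).left_inv (hz' i)
  rw [this, Φ.symm_apply_apply, e.right_inv hz]

omit [∀ i, ChartedSpace (Cm (d i)) (Y i)] [ChartedSpace (Cm n) M] [IsManifold 𝓘(ℂ, Cm n) ω M]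
  [∀ i, IsManifold 𝓘(ℂ, Cm (d i)) ω (Y i)] in
theorem reps_repi (he : m ∈ e.source) (he' : ∀ i, Φ m i ∈ (e' i).source) :
    ∀ᶠ ζ in 𝓝 (reps Φ e e' (e m)), reps Φ e e' (repi Φ e e' ζ) = ζ := by
  have hm : reps Φ e e' (e m) = fun i => e' i (Φ m i) := by
    funext i
    show e' i (Φ (e.symm (e m)) i) = _
    rw [e.left_inv he]
  rw [hm]
  have h1 : ∀ᶠ ζ in 𝓝 (fun i => e' i (Φ m i)), ∀ i, ζ i ∈ (e' i).target := by
    rw [Filter.eventually_all]
    intro i
    exact (continuous_apply i).continuousAt.eventually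
      ((e' i).open_target.mem_nhds ((e' i).map_source (he' i)))
  have h2 : ∀ᶠ ζ in 𝓝 (fun i => e' i (Φ m i)),
      (Φ.symm fun i => (e' i).symm (ζ i)) ∈ e.source := by
    have hc : ContinuousAt (fun ζ : (i : Fin k) → Cm (d i) => Φ.symm fun i => (e' i).symm (ζ i))
        (fun i => e' i (Φ m i)) := by
      refine Φ.symm.continuous.continuousAt.comp ?_
      rw [continuousAt_pi]
      intro i
      exact ContinuousAt.comp (f := fun ζ : (i : Fin k) → Cm (d i) => ζ i) (g := (e' i).symm)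
        ((e' i).continuousAt_symm ((e' i).map_source (he' i))) (continuous_apply i).continuousAt
    refine hc.eventually (e.open_source.mem_nhds ?_)
    show (Φ.symm fun i => (e' i).symm (e' i (Φ m i))) ∈ e.source
    have : (fun i => (e' i).symm (e' i (Φ m i))) = Φ m :=
      funext fun i => (e' i).left_inv (he' i)
    rw [this, Φ.symm_apply_apply]; exact he
  filter_upwards [h1, h2] with ζ hζ hζ'
  funext i
  show e' i (Φ (e.symm (e (Φ.symm fun i => (e' i).symm (ζ i)))) i) = ζ i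
  rw [e.left_inv hζ', Φ.apply_symm_apply, (e' i).right_inv (hζ i)]

variable (hhol : ∀ i, ContMDiff 𝓘(ℂ, Cm n) 𝓘(ℂ, Cm (d i)) ω (fun m => Φ m i))
include hhol

theorem reps_diff (he : At e m) (he' : ∀ i, At (e' i) (Φ m i)) :
    DifferentiableAt ℂ (reps Φ e e') (e m) :=
  differentiableAt_pi.2 fun i => rep_diff (hhol i).contMDiffAt he (he' i)

theorem fderiv_reps (he : At e m) (he' : ∀ i, At (e' i) (Φ m i)) (u : Cm n) (i : Fin k) :
    fderiv ℂ (reps Φ e e') (e m) u i = (jacF (fun m => Φ m i) e (e' i) m).mulVec u := by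
  rw [jacF_eq, ← jmR_mulVec (rep_diff (hhol i).contMDiffAt he (he' i))]
  have h := (hasFDerivAt_pi'.1 (reps_diff Φ hhol he he').hasFDerivAt) i
  rw [show (fun z => e' i (Φ (e.symm z) i)) = fun z => reps Φ e e' z i from rfl, h.fderiv]
  rfl

theorem jac_inj_aux (he : At e m) (he' : ∀ i, At (e' i) (Φ m i))
    (hs : ContDiffAt ℂ ω (repi Φ e e') (fun i => e' i (Φ m i))) (u : Cm n)
    (hu : ∀ i, (jacF (fun m => Φ m i) e (e' i) m).mulVec u = 0) : u = 0 := by
  have hm : reps Φ e e' (e m) = fun i => e' i (Φ m i) := by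
    funext i
    show e' i (Φ (e.symm (e m)) i) = _
    rw [he.left_inv]
  have h1 : DifferentiableAt ℂ (repi Φ e e') (reps Φ e e' (e m)) := by
    rw [hm]; exact hs.differentiableAt (by simp)
  have h2 := fderiv_comp (e m) h1 (reps_diff Φ hhol he he')
  have h3 : (repi Φ e e' ∘ reps Φ e e') =ᶠ[𝓝 (e m)] id :=
    repi_reps Φ he.2 (fun i => (he' i).2)
  rw [h3.fderiv_eq, fderiv_id] at h2
  have h4 := congrArg (fun L => L u) h2
  have h5 : fderiv ℂ (reps Φ e e') (e m) u = 0 := by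
    funext i
    rw [fderiv_reps Φ hhol he he']
    exact hu i
  simp only [ContinuousLinearMap.comp_apply, h5, map_zero] at h4
  exact h4

theorem dsum_aux (he : At e m) (he' : ∀ i, At (e' i) (Φ m i))
    (hs : ContDiffAt ℂ ω (repi Φ e e') (fun i => e' i (Φ m i))) : ∑ i, d i = n := by
  have hm : reps Φ e e' (e m) = fun i => e' i (Φ m i) := by
    funext i
    show e' i (Φ (e.symm (e m)) i) = _
    rw [he.left_inv]
  have h1 : DifferentiableAt ℂ (repi Φ e e') (reps Φ e e' (e m)) := by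
    rw [hm]; exact hs.differentiableAt (by simp)
  have h2 := fderiv_comp (e m) h1 (reps_diff Φ hhol he he')
  have h3 : (repi Φ e e' ∘ reps Φ e e') =ᶠ[𝓝 (e m)] id :=
    repi_reps Φ he.2 (fun i => (he' i).2)
  rw [h3.fderiv_eq, fderiv_id] at h2
  have h3' : (reps Φ e e' ∘ repi Φ e e') =ᶠ[𝓝 (reps Φ e e' (e m))] id :=
    reps_repi Φ he.2 (fun i => (he' i).2)
  have h5 : repi Φ e e' (reps Φ e e' (e m)) = e m := (repi_reps Φ he.2 (fun i => (he' i).2)).self_of_nhds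
  have h4 := fderiv_comp (reps Φ e e' (e m)) (g := reps Φ e e') (f := repi Φ e e')
    (by rw [h5]; exact reps_diff Φ hhol he he') h1
  rw [h3'.fderiv_eq, fderiv_id, h5] at h4
  let T : Cm n ≃ₗ[ℂ] ((i : Fin k) → Cm (d i)) := LinearEquiv.ofLinear
    (fderiv ℂ (reps Φ e e') (e m)).toLinearMap
    (fderiv ℂ (repi Φ e e') (reps Φ e e' (e m))).toLinearMap
    (LinearMap.ext fun v => (congrArg (fun L => L v) h4).symm)
    (LinearMap.ext fun v => (congrArg (fun L => L v) h2).symm)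
  have h6 := T.finrank_eq
  have h7 : Module.finrank ℂ ((i : Fin k) → Cm (d i)) = ∑ i, d i := by
    rw [Module.finrank_pi_fintype]
    exact Finset.sum_congr rfl fun i _ => by simp
  have h8 : Module.finrank ℂ (Cm n) = n := by simp
  rw [← h7, ← h6, h8]

end aux

theorem mem_iInf_aux {V : Type*} [AddCommGroup V] [Module ℂ V] {k : ℕ} (i : Fin k)
    (K : Fin k → Submodule ℂ V) (v : V) : v ∈ ⨅ j ≠ i, K j ↔ ∀ j, j ≠ i → v ∈ K j := by
  simp only [Submodule.mem_iInf]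

section main
variable {k n : ℕ} {X M : Type} [TopologicalSpace X] [T2Space X] [CompactSpace X]
  [ConnectedSpace X] [ChartedSpace (Cm n) X] [IsManifold 𝓘(ℂ, Cm n) ω X]
  [TopologicalSpace M] [ChartedSpace (Cm n) M] [IsManifold 𝓘(ℂ, Cm n) ω M]
  [SimplyConnectedSpace M] {π : M → X}

/-- **D1-PROD.** A splitting of `T_X` on a compact Kähler manifold gives a product decomposition of
the universal covering. -/
theorem exists_prod (hπ : IsCoveringMap π) (hl : IsLocalDiffeomorph 𝓘(ℂ, Cm n) 𝓘(ℂ, Cm n) ω π)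
    (h : Form (Cm n) X) (hh : Vale.Agent.P278.StmtF.IsKahler h) (F : Fin k → Dist (Cm n) X)
    (hF : IsSplitting F) :
    ∃ P : Pr k n M π, ∀ (i : Fin k) (e : Chart n M) (m : M)
      (e' : (i : Fin k) → Chart (P.d i) (P.Y i)), At e m → (∀ j, At (e' j) (P.Φ m j)) →
      ∀ u : Cm n, ((jacF π e (chartAt (Cm n) (π m)) m).mulVec u : Cm n) ∈
          (F i (π m) : Submodule ℂ (Cm n)) ↔
        ∀ j, j ≠ i → (jacF (fun m => P.Φ m j) e (e' j) m).mulVec u = 0 := by
  classical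
  obtain ⟨A, i1, i2, Y, i3, i4, Φ, h1, ρ, h2, h3⟩ := splitting_product hπ hl h hh F hF
  have i5 : ∀ i, FiniteDimensional ℂ (A i) := fun i => (h1.factor i).fd
  have i6 : ∀ i, IsManifold 𝓘(ℂ, A i) ω (Y i) := fun i => (h1.factor i).mfd
  let d : Fin k → ℕ := fun i => Module.finrank ℂ (A i)
  let L : ∀ i, A i ≃L[ℂ] Cm (d i) := fun i => ContinuousLinearEquiv.ofFinrankEq (by simp [d])
  let ch : ∀ i, ChartedSpace (Cm (d i)) (Y i) := fun i => transCh (L i) (Y i)
  have hm : ∀ i, IsManifold 𝓘(ℂ, Cm (d i)) ω (Y i) := fun i => transCh_manifold (L i) (Y i)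
  have hid : ∀ i, ContMDiff 𝓘(ℂ, A i) 𝓘(ℂ, Cm (d i)) ω (fun y : Y i => y) := fun i =>
    transCh_id (L i) (Y i)
  have hid' : ∀ i, ContMDiff 𝓘(ℂ, Cm (d i)) 𝓘(ℂ, A i) ω (fun y : Y i => y) := fun i =>
    transCh_id' (L i) (Y i)
  let Ψ : Diffeomorph 𝓘(ℂ, Cm n) (Vale.Agent.P278.piModel ℂ A) M (∀ i, Y i) ω :=
    h1.bihol.2.diffeomorphOfBijective h1.bihol.1
  have hΨ : ∀ m, Ψ m = Φ m := fun m => rfl
  let Θ : M ≃ₜ ((i : Fin k) → Y i) := Ψ.toHomeomorph
  have hΘ : ∀ m, Θ m = Φ m := fun m => rfl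
  have hΘs : ∀ y, Θ.symm y = Ψ.symm y := fun m => rfl
  have hΦc : ∀ i, ContMDiff 𝓘(ℂ, Cm n) 𝓘(ℂ, A i) ω (fun m => Θ m i) := fun i =>
    h1.contMDiff_coord i
  have hΦd : ∀ i, ContMDiff 𝓘(ℂ, Cm n) 𝓘(ℂ, Cm (d i)) ω (fun m => Θ m i) := fun i =>
    (hid i).comp (hΦc i)
  have hsymm : ∀ (e : Chart n M) (m : M) (e' : (i : Fin k) → Chart (d i) (Y i)), At e m →
      (∀ i, At (e' i) (Θ m i)) → ContDiffAt ℂ ω (repi Θ e e') (fun i => e' i (Θ m i)) := by
    intro e m e' he he'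
    rw [← contMDiffAt_iff_contDiffAt]
    have hpt : Θ.symm (fun i => (e' i).symm (e' i (Θ m i))) = m := by
      have : (fun i => (e' i).symm (e' i (Θ m i))) = Θ m :=
        funext fun i => (e' i).left_inv (he' i).2
      rw [this, Θ.symm_apply_apply]
    have k1 : ContMDiffAt 𝓘(ℂ, (i : Fin k) → Cm (d i)) (Vale.Agent.P278.piModel ℂ A) ω
        (fun ζ : (i : Fin k) → Cm (d i) => fun i => (e' i).symm (ζ i))
        (fun i => e' i (Θ m i)) := by
      rw [Vale.Agent.P278.contMDiffAt_pi_iff]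
      intro i
      have k2 : ContMDiffAt 𝓘(ℂ, (i : Fin k) → Cm (d i)) 𝓘(ℂ, Cm (d i)) ω
          (fun ζ : (i : Fin k) → Cm (d i) => ζ i) (fun i => e' i (Θ m i)) := by
        rw [contMDiffAt_iff_contDiffAt]
        exact (ContinuousLinearMap.proj (R := ℂ) (φ := fun i => Cm (d i)) i).contDiff.contDiffAt
      have k3 : ContMDiffAt 𝓘(ℂ, Cm (d i)) 𝓘(ℂ, Cm (d i)) ω (e' i).symm (e' i (Θ m i)) :=
        chart_symm_contMDiffAt (he' i).1 (he' i).mem_target
      have k4 : ContMDiffAt 𝓘(ℂ, Cm (d i)) 𝓘(ℂ, A i) ω (e' i).symm (e' i (Θ m i)) :=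
        ContMDiffAt.comp _ (g := fun y : Y i => y) (hid' i).contMDiffAt k3
      exact ContMDiffAt.comp _ k4 k2
    have k5 : ContMDiffAt 𝓘(ℂ, (i : Fin k) → Cm (d i)) 𝓘(ℂ, Cm n) ω
        (fun ζ : (i : Fin k) → Cm (d i) => Θ.symm fun i => (e' i).symm (ζ i))
        (fun i => e' i (Θ m i)) :=
      ContMDiffAt.comp _ Ψ.symm.contMDiff.contMDiffAt k1
    refine ContMDiffAt.comp _ (g := e) ?_ k5
    rw [hpt]
    exact chart_contMDiffAt he
  have hne : Nonempty M := inferInstance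
  let P : Pr k n M π :=
    { d := d
      Y := Y
      topY := i3
      chY := ch
      mfdY := hm
      t2Y := fun i => (h1.factor i).t2
      scY := fun i => (h1.factor i).simply
      secY := fun i => (h1.factor i).sc
      dsum := by
        obtain ⟨m⟩ := hne
        exact dsum_aux Θ hΦd (at_chartAt m) (fun i => at_chartAt (Θ m i))
          (hsymm _ m _ (at_chartAt m) (fun i => at_chartAt (Θ m i)))
      Φ := Θ
      Φ_hol := hΦd
      symm_hol := hsymm
      slice_hol := fun i y => (Ψ.symm.contMDiff.comp (contMDiff_update y i)).comp (hid' i)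
      jac_inj := fun e m e' he he' u hu =>
        jac_inj_aux Θ hΦd he he' (hsymm e m e' he he') u hu
      ρ := ρ
      ρ_hol := fun i γ => (hid i).comp ((h2 i γ).comp (hid' i))
      equiv := h3 }
  refine ⟨P, fun i e m e' he he' u => ?_⟩
  have hc := at_chartAt (n := n) m
  set v : Cm n := (jacM e (chartAt (Cm n) m) m).mulVec u with hv
  have e1 : (jacF π e (chartAt (Cm n) (π m)) m).mulVec u =
      (mfderiv 𝓘(ℂ, Cm n) 𝓘(ℂ, Cm n) π m : Cm n →L[ℂ] Cm n) v := by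
    rw [mfderiv_eq_jacF hl.contMDiff.contMDiffAt, hv, Matrix.mulVec_mulVec,
      ← jacF_left hl.contMDiff.contMDiffAt he hc (at_chartAt (π m))]
  have e2 : (jacF π e (chartAt (Cm n) (π m)) m).mulVec u ∈ (F i (π m) : Submodule ℂ (Cm n)) ↔
      (show TangentSpace 𝓘(ℂ, Cm n) m from v) ∈ pull π (F i) m := by
    rw [e1]
    exact Iff.rfl
  refine e2.trans ?_
  have e3 : ∀ j, (jacF (fun m => P.Φ m j) e (e' j) m).mulVec u = 0 ↔
      (mfderiv 𝓘(ℂ, Cm n) 𝓘(ℂ, A j) (fun m => Φ m j) m : Cm n →L[ℂ] A j) v = 0 := by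
    intro j
    have f1 : (jacF (fun m => P.Φ m j) e (e' j) m).mulVec u = 0 ↔
        (mfderiv 𝓘(ℂ, Cm n) 𝓘(ℂ, Cm (d j)) (fun m => Θ m j) m : Cm n →L[ℂ] Cm (d j)) v = 0 := by
      have hcj := at_chartAt (n := d j) (Θ m j)
      have g1 : (mfderiv 𝓘(ℂ, Cm n) 𝓘(ℂ, Cm (d j)) (fun m => Θ m j) m : Cm n →L[ℂ] Cm (d j)) v =
          (jacF (fun m => Θ m j) e (chartAt (Cm (d j)) (Θ m j)) m).mulVec u := by
        rw [mfderiv_eq_jacF (hΦd j).contMDiffAt, hv, Matrix.mulVec_mulVec,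
          ← jacF_left (hΦd j).contMDiffAt he hc hcj]
      rw [g1]
      constructor
      · intro h0
        have h0' : (jacF (fun m => Θ m j) e (e' j) m).mulVec u = (0 : Cm (d j)) := h0
        have h00 : (jacF (fun m => Θ m j) e (chartAt (Cm (d j)) (Θ m j)) m).mulVec u =
            (0 : Cm (d j)) := by
          rw [jacF_right (hΦd j).contMDiffAt he (he' j) hcj, ← Matrix.mulVec_mulVec, h0',
            Matrix.mulVec_zero]
        exact h00
      · intro h0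
        have h0' : (jacF (fun m => Θ m j) e (chartAt (Cm (d j)) (Θ m j)) m).mulVec u =
            (0 : Cm (d j)) := h0
        have h00 : (jacF (fun m => Θ m j) e (e' j) m).mulVec u = (0 : Cm (d j)) := by
          rw [jacF_right (hΦd j).contMDiffAt he hcj (he' j), ← Matrix.mulVec_mulVec, h0',
            Matrix.mulVec_zero]
        exact h00
    rw [f1]
    have g2 := mfderiv_comp m (g := fun y : Y j => y) (f := fun m => Θ m j)
      ((hid j).mdifferentiable (by simp) _) ((hΦc j).mdifferentiable (by simp) m)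
    have g3 := mfderiv_comp m (g := fun y : Y j => y) (f := fun m => Θ m j)
      ((hid' j).mdifferentiable (by simp) _) ((hΦd j).mdifferentiable (by simp) m)
    constructor
    · intro h0
      have g4 := congrArg (fun L : Cm n →L[ℂ] A j => L v) g3
      refine g4.trans ?_
      show (mfderiv 𝓘(ℂ, Cm (d j)) 𝓘(ℂ, A j) (fun y : Y j => y) (Θ m j) : Cm (d j) →L[ℂ] A j)
        ((mfderiv 𝓘(ℂ, Cm n) 𝓘(ℂ, Cm (d j)) (fun m => Θ m j) m : Cm n →L[ℂ] Cm (d j)) v) = 0
      rw [h0, map_zero]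
    · intro h0
      have g4 := congrArg (fun L : Cm n →L[ℂ] Cm (d j) => L v) g2
      refine g4.trans ?_
      show (mfderiv 𝓘(ℂ, A j) 𝓘(ℂ, Cm (d j)) (fun y : Y j => y) (Θ m j) : A j →L[ℂ] Cm (d j))
        ((mfderiv 𝓘(ℂ, Cm n) 𝓘(ℂ, A j) (fun m => Θ m j) m : Cm n →L[ℂ] A j) v) = 0
      have h0' : (mfderiv 𝓘(ℂ, Cm n) 𝓘(ℂ, A j) (fun m => Θ m j) m : Cm n →L[ℂ] A j) v = 0 := h0
      rw [h0', map_zero]
  have e4 : (show TangentSpace 𝓘(ℂ, Cm n) m from v) ∈ pull π (F i) m ↔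
      ∀ j, j ≠ i → (show TangentSpace 𝓘(ℂ, Cm n) m from v) ∈
        Vale.Agent.P278.StmtF.kerD (A j) (fun y => Φ y j) m := by
    rw [h1.ker i m]
    exact mem_iInf_aux i (fun j => Vale.Agent.P278.StmtF.kerD (A j) (fun y => Φ y j) m) v
  refine e4.trans (forall_congr' fun j => forall_congr' fun hj => ?_)
  rw [e3 j]
  exact LinearMap.mem_ker

end main

end Vale.Agent.P299.D1
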