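import Vale.Agent.P299.H723.D.Defs
import Vale.Agent.P300.H903.UC
import Vale.Agent.P278.H837.Final

/-!
# P299, part D, D1-UC: the universal covering of a compact connected complex manifold
-/

open scoped Manifold ContDiff ComplexOrder Topology
open Vale.Agent.P272.K Vale.Agent.P278.H837

noncomputable section

namespace Vale.Agent.P299.D1

/-- The universal covering of `X` (the first fields of `Vale.Agent.P299.D.Split`). -/
structure UC (n : ℕ) (X : Type) [TopologicalSpace X] [ChartedSpace (Cm n) X] where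
  M : Type
  topM : TopologicalSpace M
  chM : ChartedSpace (Cm n) M
  mfdM : IsManifold 𝓘(ℂ, Cm n) ω M
  t2M : T2Space M
  scM : SimplyConnectedSpace M
  secM : SecondCountableTopology M
  π : M → X
  cov : IsCoveringMap π
  surj : Function.Surjective π
  loc : IsLocalDiffeomorph 𝓘(ℂ, Cm n) 𝓘(ℂ, Cm n) ω π
  gal : ∀ m m' : M, π m = π m' ↔ ∃ γ : Deck π, (γ : M ≃ₜ M) m = m'

attribute [instance] UC.topM UC.chM UC.mfdM UC.t2M UC.scM UC.secM

theorem exists_uc (n : ℕ) (X : Type) [TopologicalSpace X] [T2Space X] [CompactSpace X]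
    [ConnectedSpace X] [ChartedSpace (Cm n) X] [IsManifold 𝓘(ℂ, Cm n) ω X] :
    Nonempty (UC n X) := by
  obtain ⟨M, h1, h2, π, h3, h4, h5, h6, h7, ⟨h8, h9, h10⟩, -⟩ :=
    Vale.Agent.P300.H903.exists_universalCover (E := Cm n) X
  refine ⟨⟨M, h1, h2, h3, h4, h5, ?_, π, h8, h9, h10, ?_⟩⟩
  · exact Vale.Agent.P278.Full.secondCountable_of_covering (E := Cm n) h8
  · intro m m'
    constructor
    · exact fun h => exists_deck h8 h
    · rintro ⟨γ, rfl⟩
      exact (γ.2 m).symm

end Vale.Agent.P299.D1
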